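import Vale.Agent.Lib.P344.Basic

namespace Vale.Agent.Lib.P344

open Finset

/-- is the gate a scalar multiplication -/
def Gate.isScalar : Gate → Bool
  | Gate.smul _ _ => true
  | _ => false

/-- number of addition and subtraction gates among the first `m` gates -/
def addCount (gates : List Gate) (m : ℕ) : ℕ :=
  ((range m).filter (fun t => (gateAt gates t).isScalar = false)).card

/-- number of scalar gates among the first `m` gates -/
def smulCount (gates : List Gate) (m : ℕ) : ℕ :=
  ((range m).filter (fun t => (gateAt gates t).isScalar = true)).card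

theorem addCount_succ (gates : List Gate) (m : ℕ) :
    addCount gates (m + 1) =
      addCount gates m + if (gateAt gates m).isScalar = false then 1 else 0 := by
  unfold addCount
  rw [Finset.range_add_one, Finset.filter_insert]
  split_ifs with h
  · rw [Finset.card_insert_of_notMem (by simp)]
  · simp

theorem smulCount_succ (gates : List Gate) (m : ℕ) :
    smulCount gates (m + 1) =
      smulCount gates m + if (gateAt gates m).isScalar = true then 1 else 0 := by
  unfold smulCount
  rw [Finset.range_add_one, Finset.filter_insert]
  split_ifs with h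
  · rw [Finset.card_insert_of_notMem (by simp)]
  · simp

theorem addCount_add_smulCount (gates : List Gate) (m : ℕ) :
    addCount gates m + smulCount gates m = m := by
  induction m with
  | zero => simp [addCount, smulCount]
  | succ m ih =>
    rw [addCount_succ, smulCount_succ]
    cases h : (gateAt gates m).isScalar <;> simp <;> omega

variable {n : ℕ}

/-- merging the labels of the supports of two forms -/
theorem merge_labels (lab : Fin n → Fin n) (a b : Fin n → ℂ)
    (ha : ∀ k k', a k ≠ 0 → a k' ≠ 0 → lab k = lab k')
    (hb : ∀ k k', b k ≠ 0 → b k' ≠ 0 → lab k = lab k') :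
    ∃ lab' : Fin n → Fin n,
      (∀ k k', lab k = lab k' → lab' k = lab' k') ∧
      (∀ k k', (a k ≠ 0 ∨ b k ≠ 0) → (a k' ≠ 0 ∨ b k' ≠ 0) → lab' k = lab' k') ∧
      (univ.image lab).card ≤ (univ.image lab').card + 1 := by
  by_cases hA : ∃ ka, a ka ≠ 0
  · by_cases hB : ∃ kb, b kb ≠ 0
    · obtain ⟨ka, hka⟩ := hA
      obtain ⟨kb, hkb⟩ := hB
      refine ⟨fun k => if lab k = lab kb then lab ka else lab k, ?_, ?_, ?_⟩
      · intro k k' h
        simp only [h]
      · have key : ∀ k, (a k ≠ 0 ∨ b k ≠ 0) →
            (if lab k = lab kb then lab ka else lab k) = lab ka := by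
          intro k hk
          rcases hk with hk | hk
          · rw [ha k ka hk hka]; simp
          · rw [hb k kb hk hkb]; simp
        intro k k' hk hk'
        simp only
        rw [key k hk, key k' hk']
      · have hsub : univ.image lab ⊆
            insert (lab kb) (univ.image (fun k => if lab k = lab kb then lab ka else lab k)) := by
          intro y hy
          rw [Finset.mem_image] at hy
          obtain ⟨k, -, rfl⟩ := hy
          by_cases h : lab k = lab kb
          · rw [h]; exact Finset.mem_insert_self _ _
          · apply Finset.mem_insert_of_mem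
            rw [Finset.mem_image]
            exact ⟨k, Finset.mem_univ _, by simp [h]⟩
        exact (Finset.card_le_card hsub).trans (Finset.card_insert_le _ _)
    · refine ⟨lab, fun k k' h => h, ?_, Nat.le_succ _⟩
      intro k k' hk hk'
      have h1 : a k ≠ 0 := by
        rcases hk with hk | hk
        · exact hk
        · exact absurd ⟨k, hk⟩ hB
      have h2 : a k' ≠ 0 := by
        rcases hk' with hk' | hk'
        · exact hk'
        · exact absurd ⟨k', hk'⟩ hB
      exact ha k k' h1 h2
  · refine ⟨lab, fun k k' h => h, ?_, Nat.le_succ _⟩
    intro k k' hk hk'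
    have h1 : b k ≠ 0 := by
      rcases hk with hk | hk
      · exact absurd ⟨k, hk⟩ hA
      · exact hk
    have h2 : b k' ≠ 0 := by
      rcases hk' with hk' | hk'
      · exact absurd ⟨k', hk'⟩ hA
      · exact hk'
    exact hb k k' h1 h2

theorem pre_label (gates : List Gate) (m : ℕ) (lab : Fin n → Fin n)
    (h : ∀ i, i < m → ∀ k k', form n gates i k ≠ 0 → form n gates i k' ≠ 0 → lab k = lab k')
    (i : ℕ) : ∀ k k', pre n gates m i k ≠ 0 → pre n gates m i k' ≠ 0 → lab k = lab k' := by
  intro k k' hk hk'
  unfold pre at hk hk'
  by_cases hi : i < m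
  · rw [if_pos hi] at hk hk'
    exact h i hi k k' hk hk'
  · rw [if_neg hi] at hk
    exact absurd rfl hk

/-- the supports of the forms computed so far lie in single classes of a labelling with many labels -/
theorem label_invariant (gates : List Gate) (m : ℕ) (hm : m ≤ gates.length) :
    ∃ lab : Fin n → Fin n,
      (∀ i, i < n + 1 + m → ∀ k k', form n gates i k ≠ 0 → form n gates i k' ≠ 0 → lab k = lab k') ∧
      n ≤ (univ.image lab).card + addCount gates m := by
  induction m with
  | zero =>
    refine ⟨id, ?_, ?_⟩
    · intro i hi k k' hk hk'
      rcases Nat.lt_or_ge i n with h | h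
      · have hf := form_input gates (⟨i, h⟩ : Fin n)
        simp only at hf
        rw [hf] at hk hk'
        have e1 : k = ⟨i, h⟩ := by
          by_contra hne
          exact hk (Pi.single_eq_of_ne hne _)
        have e2 : k' = ⟨i, h⟩ := by
          by_contra hne
          exact hk' (Pi.single_eq_of_ne hne _)
        simp [e1, e2]
      · have hi' : i = n := by omega
        subst hi'
        rw [form_zero] at hk
        exact absurd rfl hk
    · simp
  | succ m ih =>
    obtain ⟨lab, h1, h2⟩ := ih (by omega)
    have hpre := pre_label gates (n + 1 + m) lab h1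
    have hform := form_gate (n := n) gates m (by omega)
    have hcount := addCount_succ gates m
    cases hg : gateAt gates m with
    | add i j =>
      rw [hg] at hform hcount
      obtain ⟨lab', l1, l2, l3⟩ := merge_labels lab _ _ (hpre i) (hpre j)
      refine ⟨lab', ?_, ?_⟩
      · intro i' hi' k k' hk hk'
        rcases Nat.lt_or_ge i' (n + 1 + m) with h | h
        · exact l1 k k' (h1 i' h k k' hk hk')
        · have e : i' = n + 1 + m := by omega
          subst e
          rw [hform] at hk hk'
          simp only [Gate.evalF, Pi.add_apply] at hk hk'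
          apply l2 k k'
          · by_contra hcon
            simp only [not_or, not_not] at hcon
            exact hk (by rw [hcon.1, hcon.2, add_zero])
          · by_contra hcon
            simp only [not_or, not_not] at hcon
            exact hk' (by rw [hcon.1, hcon.2, add_zero])
      · rw [hcount]
        simp only [Gate.isScalar, if_true]
        omega
    | sub i j =>
      rw [hg] at hform hcount
      obtain ⟨lab', l1, l2, l3⟩ := merge_labels lab _ _ (hpre i) (hpre j)
      refine ⟨lab', ?_, ?_⟩
      · intro i' hi' k k' hk hk'
        rcases Nat.lt_or_ge i' (n + 1 + m) with h | h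
        · exact l1 k k' (h1 i' h k k' hk hk')
        · have e : i' = n + 1 + m := by omega
          subst e
          rw [hform] at hk hk'
          simp only [Gate.evalF, Pi.sub_apply] at hk hk'
          apply l2 k k'
          · by_contra hcon
            simp only [not_or, not_not] at hcon
            exact hk (by rw [hcon.1, hcon.2, sub_zero])
          · by_contra hcon
            simp only [not_or, not_not] at hcon
            exact hk' (by rw [hcon.1, hcon.2, sub_zero])
      · rw [hcount]
        simp only [Gate.isScalar, if_true]
        omega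
    | smul c i =>
      rw [hg] at hform hcount
      refine ⟨lab, ?_, ?_⟩
      · intro i' hi' k k' hk hk'
        rcases Nat.lt_or_ge i' (n + 1 + m) with h | h
        · exact h1 i' h k k' hk hk'
        · have e : i' = n + 1 + m := by omega
          subst e
          rw [hform] at hk hk'
          simp only [Gate.evalF, Pi.smul_apply, smul_eq_mul] at hk hk'
          exact hpre i k k' (right_ne_zero_of_mul hk) (right_ne_zero_of_mul hk')
      · rw [hcount]
        simp only [Gate.isScalar]
        omega

/-- a node whose form is a nonzero multiple of a form without zero coefficients comes, through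
scalar gates only, from an addition or subtraction gate with the same property -/
theorem trace_back (hn : 2 ≤ n) (gates : List Gate) (R : Fin n → ℂ) (hR : ∀ k, R k ≠ 0) :
    ∀ m, ∀ c : ℂ, c ≠ 0 → form n gates m = c • R →
      ∃ t, t < gates.length ∧ (gateAt gates t).isScalar = false ∧
        ∃ c' : ℂ, c' ≠ 0 ∧ form n gates (n + 1 + t) = c' • R := by
  intro m
  induction m using Nat.strong_induction_on with
  | _ m ih =>
    intro c hc hm
    have hne : ∀ k, form n gates m k ≠ 0 := by
      intro k
      rw [hm]
      simp only [Pi.smul_apply, smul_eq_mul]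
      exact mul_ne_zero hc (hR k)
    rcases Nat.lt_or_ge m n with h | h
    · exfalso
      have hf := form_input gates (⟨m, h⟩ : Fin n)
      simp only at hf
      have hk : ∃ k : Fin n, k ≠ ⟨m, h⟩ := by
        by_cases h0 : m = 0
        · exact ⟨⟨1, by omega⟩, by simp [Fin.ext_iff, h0]⟩
        · exact ⟨⟨0, by omega⟩, by simp [Fin.ext_iff]; omega⟩
      obtain ⟨k, hk⟩ := hk
      apply hne k
      rw [hf]
      exact Pi.single_eq_of_ne hk _
    · rcases Nat.lt_or_ge m (n + 1) with h' | h'
      · exfalso
        have e : m = n := by omega
        subst e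
        apply hne ⟨0, by omega⟩
        rw [form_zero]
        rfl
      · rcases Nat.lt_or_ge m (n + 1 + gates.length) with h'' | h''
        · obtain ⟨t, rfl⟩ : ∃ t, m = n + 1 + t := ⟨m - (n + 1), by omega⟩
          have ht : t < gates.length := by omega
          have hform := form_gate (n := n) gates t ht
          cases hg : gateAt gates t with
          | add i j => exact ⟨t, ht, by rw [hg]; rfl, c, hc, hm⟩
          | sub i j => exact ⟨t, ht, by rw [hg]; rfl, c, hc, hm⟩
          | smul d i =>
            rw [hg] at hform
            simp only [Gate.evalF] at hform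
            have hd : d ≠ 0 := by
              intro hd
              apply hne ⟨0, by omega⟩
              rw [hform, hd, zero_smul]
              rfl
            by_cases hi : i < n + 1 + t
            · have hpre : pre n gates (n + 1 + t) i = form n gates i := by
                unfold pre; rw [if_pos hi]
              rw [hpre] at hform
              have hi2 : form n gates i = (d⁻¹ * c) • R := by
                rw [mul_smul, ← hm, hform, smul_smul, inv_mul_cancel₀ hd, one_smul]
              obtain ⟨t', ht', hs', c', hc', hf'⟩ :=
                ih i hi (d⁻¹ * c) (mul_ne_zero (inv_ne_zero hd) hc) hi2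
              exact ⟨t', ht', hs', c', hc', hf'⟩
            · exfalso
              have hpre : pre n gates (n + 1 + t) i = 0 := by
                unfold pre; rw [if_neg hi]
              apply hne ⟨0, by omega⟩
              rw [hform, hpre, smul_zero]
              rfl
        · exfalso
          apply hne ⟨0, by omega⟩
          rw [form_of_ge gates m h'']
          rfl

theorem addCount_mono (gates : List Gate) {m m' : ℕ} (h : m ≤ m') :
    addCount gates m ≤ addCount gates m' := by
  unfold addCount
  apply Finset.card_le_card
  apply Finset.filter_subset_filter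
  intro t ht
  rw [Finset.mem_range] at ht ⊢
  omega

/-- rows of a Fourier matrix are pairwise non-proportional -/
theorem row_inj (hn : 2 ≤ n) (ζ : ℂ) (hζ : IsPrimitiveRoot ζ n) (j j' : Fin n) (c c' : ℂ)
    (hc : c ≠ 0)
    (h : (c • fun k : Fin n => ζ ^ ((j : ℕ) * (k : ℕ))) =
      c' • fun k : Fin n => ζ ^ ((j' : ℕ) * (k : ℕ))) : j = j' := by
  have h0 := congrFun h ⟨0, by omega⟩
  have h1 := congrFun h ⟨1, by omega⟩
  simp only [Pi.smul_apply, smul_eq_mul, mul_zero, pow_zero, mul_one] at h0 h1
  rw [← h0] at h1
  have h2 : ζ ^ (j : ℕ) = ζ ^ (j' : ℕ) := mul_left_cancel₀ hc h1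
  exact Fin.ext (hζ.pow_inj j.2 j'.2 h2)

/-- a circuit computing the Fourier matrix has at least `2n - 2` addition and subtraction gates -/
theorem adds_lower (hn : 2 ≤ n) (gates : List Gate) (out : Fin n → ℕ) (ζ : ℂ)
    (hζ : IsPrimitiveRoot ζ n)
    (hform : ∀ j : Fin n, form n gates (out j) = fun k : Fin n => ζ ^ ((j : ℕ) * (k : ℕ))) :
    2 * n ≤ addCount gates gates.length + 2 := by
  have hζ0 : ζ ≠ 0 := hζ.ne_zero (by omega)
  have hR : ∀ j : Fin n, ∀ k : Fin n, (fun k : Fin n => ζ ^ ((j : ℕ) * (k : ℕ))) k ≠ 0 :=
    fun j k => pow_ne_zero _ hζ0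
  have hex : ∀ j : Fin n, ∃ t, t < gates.length ∧ (gateAt gates t).isScalar = false ∧
      ∃ c' : ℂ, c' ≠ 0 ∧ form n gates (n + 1 + t) =
        c' • fun k : Fin n => ζ ^ ((j : ℕ) * (k : ℕ)) := by
    intro j
    exact trace_back hn gates _ (hR j) (out j) 1 one_ne_zero (by rw [hform j, one_smul])
  choose T hT1 hT2 cT hT3 hT4 using hex
  have hTinj : Function.Injective T := by
    intro j j' hjj
    have e := hT4 j
    rw [hjj, hT4 j'] at e
    exact (row_inj hn ζ hζ j' j (cT j') (cT j) (hT3 j') e).symm
  obtain ⟨js, -, hmin⟩ := Finset.exists_min_image (univ : Finset (Fin n)) T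
    ⟨⟨0, by omega⟩, Finset.mem_univ _⟩
  obtain ⟨lab, l1, l2⟩ := label_invariant (n := n) gates (T js + 1) (hT1 js)
  have hcard : (univ.image lab).card ≤ 1 := by
    rw [Finset.card_le_one]
    intro a ha b hb
    rw [Finset.mem_image] at ha hb
    obtain ⟨k, -, rfl⟩ := ha
    obtain ⟨k', -, rfl⟩ := hb
    apply l1 (n + 1 + T js) (by omega) k k'
    · rw [hT4 js]
      simp only [Pi.smul_apply, smul_eq_mul]
      exact mul_ne_zero (hT3 js) (hR js k)
    · rw [hT4 js]
      simp only [Pi.smul_apply, smul_eq_mul]
      exact mul_ne_zero (hT3 js) (hR js k')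
  have hsub : (range (T js + 1)).filter (fun t => (gateAt gates t).isScalar = false) ∪
      (univ.erase js).image T ⊆
      (range gates.length).filter (fun t => (gateAt gates t).isScalar = false) := by
    intro t ht
    rw [Finset.mem_union] at ht
    rw [Finset.mem_filter, Finset.mem_range]
    rcases ht with ht | ht
    · rw [Finset.mem_filter, Finset.mem_range] at ht
      have := hT1 js
      exact ⟨by omega, ht.2⟩
    · rw [Finset.mem_image] at ht
      obtain ⟨j, -, rfl⟩ := ht
      exact ⟨hT1 j, hT2 j⟩
  have hdisj : Disjoint ((range (T js + 1)).filter (fun t => (gateAt gates t).isScalar = false))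
      ((univ.erase js).image T) := by
    rw [Finset.disjoint_left]
    intro t ht ht'
    rw [Finset.mem_filter, Finset.mem_range] at ht
    rw [Finset.mem_image] at ht'
    obtain ⟨j, hj, rfl⟩ := ht'
    rw [Finset.mem_erase] at hj
    have h1 := hmin j (Finset.mem_univ _)
    have h2 : T j ≠ T js := fun h => hj.1 (hTinj h)
    omega
  have hcard2 := Finset.card_le_card hsub
  rw [Finset.card_union_of_disjoint hdisj, Finset.card_image_of_injective _ hTinj,
    Finset.card_erase_of_mem (Finset.mem_univ _), Finset.card_univ, Fintype.card_fin] at hcard2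
  unfold addCount at l2 ⊢
  omega

end Vale.Agent.Lib.P344
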