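import Vale.Agent.Lib.P344.Defs

namespace Vale.Agent.Lib.P344

open Finset

section general

variable {E : Type*} [AddCommGroup E] [Module ℂ E]
variable {E' : Type*} [AddCommGroup E'] [Module ℂ E']

/-- gate evaluation from a function giving the values of the argument nodes -/
def Gate.evalF (f : ℕ → E) : Gate → E
  | Gate.add i j => f i + f j
  | Gate.sub i j => f i - f j
  | Gate.smul c i => c • f i

/-- run the circuit in a module -/
def runM (gates : List Gate) (init : List E) : List E :=
  gates.foldl (fun vals g => vals ++ [g.evalF (fun i => vals.getD i 0)]) init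

theorem runM_snoc (gs : List Gate) (g : Gate) (init : List E) :
    runM (gs ++ [g]) init = runM gs init ++ [g.evalF (fun i => (runM gs init).getD i 0)] := by
  simp [runM, List.foldl_append]

theorem runM_length (gs : List Gate) (init : List E) :
    (runM gs init).length = init.length + gs.length := by
  induction gs using List.reverseRecOn with
  | nil => simp [runM]
  | append_singleton gs g ih => rw [runM_snoc]; simp [ih]; omega

/-- the value of node `i` -/
def nodeF (gates : List Gate) (init : List E) (i : ℕ) : E := (runM gates init).getD i 0

/-- the value of node `i` if it comes before node `m`, else zero -/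
def preF (gates : List Gate) (init : List E) (m i : ℕ) : E :=
  if i < m then nodeF gates init i else 0

theorem nodeF_of_ge (gates : List Gate) (init : List E) (i : ℕ)
    (h : init.length + gates.length ≤ i) : nodeF gates init i = 0 := by
  unfold nodeF
  rw [List.getD_eq_default]
  rw [runM_length]; exact h

theorem nodeF_init (gates : List Gate) (init : List E) (i : ℕ) (h : i < init.length) :
    nodeF gates init i = init.getD i 0 := by
  induction gates using List.reverseRecOn with
  | nil => simp [nodeF, runM]
  | append_singleton gs g ih =>
    unfold nodeF at ih ⊢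
    rw [runM_snoc, List.getD_append _ _ _ _ (by rw [runM_length]; omega)]
    exact ih

theorem nodeF_snoc_lt (gs : List Gate) (g : Gate) (init : List E) (i : ℕ)
    (h : i < init.length + gs.length) : nodeF (gs ++ [g]) init i = nodeF gs init i := by
  unfold nodeF
  rw [runM_snoc, List.getD_append _ _ _ _ (by rw [runM_length]; omega)]

theorem nodeF_snoc_eq (gs : List Gate) (g : Gate) (init : List E) :
    nodeF (gs ++ [g]) init (init.length + gs.length) =
      g.evalF (fun i => nodeF gs init i) := by
  unfold nodeF
  rw [runM_snoc, List.getD_append_right _ _ _ _ (by rw [runM_length])]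
  simp [runM_length]

theorem evalF_congr (g : Gate) (f f' : ℕ → E) (h : ∀ i, f i = f' i) : g.evalF f = g.evalF f' := by
  have : f = f' := funext h
  rw [this]

/-- the recursion satisfied by the node values -/
theorem nodeF_gate (gates : List Gate) (init : List E) (t : ℕ) (ht : t < gates.length) :
    nodeF gates init (init.length + t) =
      (gates.getD t (Gate.add 0 0)).evalF (preF gates init (init.length + t)) := by
  induction gates using List.reverseRecOn with
  | nil => simp at ht
  | append_singleton gs g ih =>
    rcases Nat.lt_or_ge t gs.length with h | h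
    · rw [nodeF_snoc_lt _ _ _ _ (by omega), ih h]
      rw [List.getD_append _ _ _ _ h]
      apply evalF_congr
      intro i
      unfold preF
      split_ifs with hi
      · rw [nodeF_snoc_lt _ _ _ _ (by omega)]
      · rfl
    · have ht' : t = gs.length := by simp at ht; omega
      subst ht'
      rw [nodeF_snoc_eq]
      rw [List.getD_append_right _ _ _ _ (le_refl _)]
      simp only [Nat.sub_self, List.getD_cons_zero]
      apply evalF_congr
      intro i
      unfold preF
      split_ifs with hi
      · rw [nodeF_snoc_lt _ _ _ _ hi]
      · rw [nodeF_of_ge _ _ _ (by omega)]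

theorem evalF_map (φ : E →ₗ[ℂ] E') (g : Gate) (f : ℕ → E) :
    φ (g.evalF f) = g.evalF (fun i => φ (f i)) := by
  cases g <;> simp [Gate.evalF]

theorem getD_map_zero (φ : E →ₗ[ℂ] E') (l : List E) (i : ℕ) :
    (l.map φ).getD i 0 = φ (l.getD i 0) := by
  have h := List.getD_map (f := φ) (l := l) (n := i) (d := 0)
  rw [map_zero] at h
  exact h

theorem runM_map (φ : E →ₗ[ℂ] E') (gates : List Gate) (init : List E) :
    runM gates (init.map φ) = (runM gates init).map φ := by
  induction gates using List.reverseRecOn with
  | nil => simp [runM]
  | append_singleton gs g ih =>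
    rw [runM_snoc, runM_snoc, ih]
    simp only [List.map_append, List.map_cons, List.map_nil]
    congr 2
    rw [evalF_map]
    apply evalF_congr
    intro i
    rw [getD_map_zero]

theorem nodeF_map (φ : E →ₗ[ℂ] E') (gates : List Gate) (init : List E) (i : ℕ) :
    nodeF gates (init.map φ) i = φ (nodeF gates init i) := by
  unfold nodeF
  rw [runM_map, getD_map_zero]

end general

section forms

variable {n : ℕ}

/-- the forms of the initial nodes: coordinate forms and the zero form -/
def init0 (n : ℕ) : List (Fin n → ℂ) :=
  List.ofFn (fun k : Fin n => (Pi.single k 1 : Fin n → ℂ)) ++ [0]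

/-- the coefficient vector of node `i` -/
def form (n : ℕ) (gates : List Gate) (i : ℕ) : Fin n → ℂ := nodeF gates (init0 n) i

/-- evaluation of a form at a point -/
def dotL (x : Fin n → ℂ) : (Fin n → ℂ) →ₗ[ℂ] ℂ where
  toFun c := ∑ k, c k * x k
  map_add' c c' := by simp [add_mul, Finset.sum_add_distrib]
  map_smul' a c := by simp [Finset.mul_sum, mul_assoc]

theorem dotL_apply (x c : Fin n → ℂ) : dotL x c = ∑ k, c k * x k := rfl

theorem init0_length (n : ℕ) : (init0 n).length = n + 1 := by simp [init0]

theorem eval_eq_evalF (vals : List ℂ) (g : Gate) :
    g.eval vals = g.evalF (fun i => vals.getD i 0) := by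
  cases g <;> rfl

theorem nodeValues_eq (gates : List Gate) (x : Fin n → ℂ) :
    nodeValues gates x = runM gates (List.ofFn x ++ [0]) := by
  unfold nodeValues runM
  congr 1

theorem init0_map (x : Fin n → ℂ) : (init0 n).map (dotL x) = List.ofFn x ++ [0] := by
  unfold init0
  rw [List.map_append, List.map_ofFn]
  congr 1
  · congr 1
    funext k
    simp [dotL_apply, Pi.single_apply]
  · simp

theorem nodeValues_getD (gates : List Gate) (x : Fin n → ℂ) (i : ℕ) :
    (nodeValues gates x).getD i 0 = ∑ k, form n gates i k * x k := by
  rw [nodeValues_eq, ← init0_map, ← dotL_apply]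
  exact nodeF_map (dotL x) gates (init0 n) i

theorem form_input (gates : List Gate) (k : Fin n) :
    form n gates k = Pi.single k 1 := by
  unfold form
  rw [nodeF_init _ _ _ (by rw [init0_length]; omega)]
  unfold init0
  rw [List.getD_append _ _ _ _ (by simp)]
  simp

theorem form_zero (gates : List Gate) : form n gates n = 0 := by
  unfold form
  rw [nodeF_init _ _ _ (by rw [init0_length]; omega)]
  unfold init0
  rw [List.getD_append_right _ _ _ _ (by simp)]
  simp

theorem form_of_ge (gates : List Gate) (i : ℕ) (h : n + 1 + gates.length ≤ i) :
    form n gates i = 0 := by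
  unfold form
  exact nodeF_of_ge _ _ _ (by rw [init0_length]; exact h)

/-- the form of node `i` if `i < m`, else zero -/
def pre (n : ℕ) (gates : List Gate) (m i : ℕ) : Fin n → ℂ :=
  if i < m then form n gates i else 0

/-- the `t`-th gate -/
def gateAt (gates : List Gate) (t : ℕ) : Gate := gates.getD t (Gate.add 0 0)

theorem form_gate (gates : List Gate) (t : ℕ) (ht : t < gates.length) :
    form n gates (n + 1 + t) = (gateAt gates t).evalF (pre n gates (n + 1 + t)) := by
  unfold form
  have h := nodeF_gate gates (init0 n) t ht
  rw [init0_length] at h
  rw [h]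
  rfl

end forms

end Vale.Agent.Lib.P344
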