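import Vale.Agent.Lib.P344.Scalars

namespace Vale.Agent.Lib.P344

open Finset Polynomial

variable {n : ℕ}

/-- the polynomial with the rational coefficients `x` -/
noncomputable def polyQ (x : Fin n → ℚ) : ℚ[X] := ∑ k : Fin n, C (x k) * X ^ (k : ℕ)

theorem aeval_polyQ (x : Fin n → ℚ) (z : ℂ) :
    aeval z (polyQ x) = ∑ k : Fin n, z ^ (k : ℕ) * (x k : ℂ) := by
  unfold polyQ
  rw [map_sum]
  apply Finset.sum_congr rfl
  intro k _
  rw [map_mul, aeval_C, map_pow, aeval_X, mul_comm]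
  simp

/-- a rational value of the transform of a rational vector at the index `gcd j n` is also its value at `j` -/
theorem dft_gcd (hn : 0 < n) (ζ : ℂ) (hζ : IsPrimitiveRoot ζ n) (x : Fin n → ℚ) (j : ℕ) (q : ℚ)
    (h : ∑ k : Fin n, ζ ^ (Nat.gcd j n * (k : ℕ)) * (x k : ℂ) = q) :
    ∑ k : Fin n, ζ ^ (j * (k : ℕ)) * (x k : ℂ) = q := by
  obtain ⟨m, hm⟩ : Nat.gcd j n ∣ n := Nat.gcd_dvd_right j n
  obtain ⟨j', hj'⟩ : Nat.gcd j n ∣ j := Nat.gcd_dvd_left j n
  have hd : 0 < Nat.gcd j n := Nat.gcd_pos_of_pos_right j hn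
  have hm0 : 0 < m := by
    rcases Nat.eq_zero_or_pos m with h0 | h0
    · rw [h0, mul_zero] at hm; omega
    · exact h0
  have hcop : Nat.Coprime j' m := by
    have := Nat.coprime_div_gcd_div_gcd hd
    have e1 : j / Nat.gcd j n = j' := Nat.div_eq_of_eq_mul_right hd hj'
    have e2 : n / Nat.gcd j n = m := Nat.div_eq_of_eq_mul_right hd hm
    rw [e1, e2] at this
    exact this
  have hμ : IsPrimitiveRoot (ζ ^ Nat.gcd j n) m := IsPrimitiveRoot.pow hn hζ hm
  have hμ' : IsPrimitiveRoot ((ζ ^ Nat.gcd j n) ^ j') m := hμ.pow_of_coprime j' hcop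
  have e1 : aeval (ζ ^ Nat.gcd j n) (polyQ x - C q) = 0 := by
    rw [map_sub, aeval_polyQ, aeval_C]
    simp only [← pow_mul]
    rw [h]
    simp
  have hdvd : minpoly ℚ (ζ ^ Nat.gcd j n) ∣ polyQ x - C q := minpoly.dvd ℚ _ e1
  have hmin : minpoly ℚ (ζ ^ Nat.gcd j n) = minpoly ℚ ((ζ ^ Nat.gcd j n) ^ j') :=
    (cyclotomic_eq_minpoly_rat hμ hm0).symm.trans (cyclotomic_eq_minpoly_rat hμ' hm0)
  have e2 : aeval ((ζ ^ Nat.gcd j n) ^ j') (polyQ x - C q) = 0 := by
    obtain ⟨r, hr⟩ := hdvd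
    rw [hr, map_mul, hmin, minpoly.aeval, zero_mul]
  rw [map_sub, aeval_polyQ, aeval_C, sub_eq_zero] at e2
  simp only [← pow_mul] at e2
  rw [← hj'] at e2
  rw [e2]
  simp

/-- the transform is injective on rational vectors -/
theorem dft_injective (hn : 0 < n) (ζ : ℂ) (hζ : IsPrimitiveRoot ζ n) (x : Fin n → ℚ)
    (h : ∀ j : Fin n, ∑ k : Fin n, ζ ^ ((j : ℕ) * (k : ℕ)) * (x k : ℂ) = 0) : x = 0 := by
  have hp : (polyQ x).map (algebraMap ℚ ℂ) = 0 := by
    apply eq_zero_of_natDegree_lt_card_of_eval_eq_zero ((polyQ x).map (algebraMap ℚ ℂ))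
      (f := fun j : Fin n => ζ ^ (j : ℕ))
    · intro i j hij
      exact Fin.ext (hζ.pow_inj i.2 j.2 hij)
    · intro j
      rw [eval_map, ← aeval_def, aeval_polyQ]
      simp only [← pow_mul]
      exact h j
    · rw [Fintype.card_fin]
      refine lt_of_le_of_lt natDegree_map_le ?_
      unfold polyQ
      by_cases hz : (∑ k : Fin n, C (x k) * X ^ (k : ℕ) : ℚ[X]) = 0
      · rw [hz]; simpa using hn
      · rw [natDegree_lt_iff_degree_lt hz]
        refine lt_of_le_of_lt (degree_sum_le _ _) ?_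
        rw [Finset.sup_lt_iff (by exact WithBot.bot_lt_coe n)]
        intro k _
        refine lt_of_le_of_lt (degree_C_mul_X_pow_le _ _) ?_
        exact_mod_cast k.2
  have hp' : polyQ x = 0 := by
    have hinj : Function.Injective (algebraMap ℚ ℂ) := (algebraMap ℚ ℂ).injective
    exact (Polynomial.map_eq_zero_iff hinj).mp hp
  funext k
  have hc : (polyQ x).coeff (k : ℕ) = x k := by
    unfold polyQ
    rw [finsetSum_coeff]
    simp only [coeff_C_mul_X_pow]
    rw [Finset.sum_eq_single k]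
    · simp
    · intro b _ hb
      rw [if_neg]
      intro hkb
      exact hb (Fin.ext hkb.symm)
    · intro hk
      exact absurd (Finset.mem_univ k) hk
  rw [hp'] at hc
  simpa using hc.symm

/-- a space of rational vectors whose transforms are rational has dimension at most
the number of divisors -/
theorem finrank_le_divisors (hn : 0 < n) (ζ : ℂ) (hζ : IsPrimitiveRoot ζ n)
    (V : Submodule ℚ (Fin n → ℚ))
    (hV : ∀ x ∈ V, ∀ j : Fin n, ∃ q : ℚ,
      dotQ (fun k : Fin n => ζ ^ ((j : ℕ) * (k : ℕ))) x = q) :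
    Module.finrank ℚ V ≤ n.divisors.card := by
  classical
  let D : (Fin n → ℚ) →ₗ[ℚ] (Fin n → ℂ) :=
    LinearMap.pi (fun j : Fin n => dotQ (fun k : Fin n => ζ ^ ((j : ℕ) * (k : ℕ))))
  have hD : ∀ x j, D x j = ∑ k : Fin n, ζ ^ ((j : ℕ) * (k : ℕ)) * (x k : ℂ) := fun x j => rfl
  have hDinj : Function.Injective D := by
    rw [← LinearMap.ker_eq_bot, LinearMap.ker_eq_bot']
    intro x hx
    apply dft_injective hn ζ hζ x
    intro j
    rw [← hD, hx]
    rfl
  let Ψ : (n.divisors → ℚ) →ₗ[ℚ] (Fin n → ℂ) :=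
    { toFun := fun q j => ((q ⟨Nat.gcd j n, Nat.mem_divisors.mpr
        ⟨Nat.gcd_dvd_right _ _, by omega⟩⟩ : ℚ) : ℂ)
      map_add' := by
        intro q q'
        funext j
        simp
      map_smul' := by
        intro a q
        funext j
        simp [Rat.smul_def] }
  have hsub : V.map D ≤ LinearMap.range Ψ := by
    rintro y ⟨x, hx, rfl⟩
    have hmod : ∀ d : n.divisors, (d : ℕ) % n < n := fun d => Nat.mod_lt _ hn
    choose q hq using fun d : n.divisors => hV x hx ⟨(d : ℕ) % n, hmod d⟩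
    refine ⟨q, ?_⟩
    funext j
    rw [hD]
    show ((q ⟨Nat.gcd j n, _⟩ : ℚ) : ℂ) = _
    symm
    apply dft_gcd hn ζ hζ x j
    have h1 := hq ⟨Nat.gcd j n, Nat.mem_divisors.mpr ⟨Nat.gcd_dvd_right _ _, by omega⟩⟩
    rw [dotQ_apply] at h1
    rw [← h1]
    apply Finset.sum_congr rfl
    intro k _
    congr 1
    simp only
    have e : ζ ^ (Nat.gcd j n % n * (k : ℕ)) = ζ ^ (Nat.gcd j n * (k : ℕ)) := by
      conv_rhs => rw [← Nat.mod_add_div (Nat.gcd j n) n]
      rw [add_mul, pow_add, mul_assoc, pow_mul ζ n, hζ.pow_eq_one, one_pow, mul_one]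
    exact e.symm
  have h1 : Module.finrank ℚ V = Module.finrank ℚ (V.map D) :=
    (Submodule.equivMapOfInjective D hDinj V).finrank_eq
  have h2 : Module.finrank ℚ (V.map D) ≤ Module.finrank ℚ (LinearMap.range Ψ) :=
    Submodule.finrank_mono hsub
  have h3 : Module.finrank ℚ (LinearMap.range Ψ) ≤ Module.finrank ℚ (n.divisors → ℚ) :=
    LinearMap.finrank_range_le Ψ
  have h4 : Module.finrank ℚ (n.divisors → ℚ) = n.divisors.card := by
    rw [Module.finrank_fintype_fun_eq_card, Fintype.card_coe]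
  omega

/-- a circuit computing the Fourier matrix has at least `n - d(n)` scalar gates -/
theorem smul_lower (hn : 0 < n) (gates : List Gate) (out : Fin n → ℕ) (ζ : ℂ)
    (hζ : IsPrimitiveRoot ζ n)
    (hform : ∀ j : Fin n, form n gates (out j) = fun k : Fin n => ζ ^ ((j : ℕ) * (k : ℕ))) :
    n ≤ smulCount gates gates.length + n.divisors.card := by
  obtain ⟨V, h1, h2⟩ := rational_invariant (n := n) gates gates.length le_rfl
  have h3 : Module.finrank ℚ V ≤ n.divisors.card := by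
    apply finrank_le_divisors hn ζ hζ V
    intro x hx j
    have hlt : out j < n + 1 + gates.length := by
      by_contra hge
      have hz := form_of_ge (n := n) gates (out j) (by omega)
      rw [hform j] at hz
      have := congrFun hz ⟨0, hn⟩
      simp at this
    rw [← hform j]
    exact h2 x hx (out j) hlt
  omega

end Vale.Agent.Lib.P344
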