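import Mathlib

namespace Vale.Agent.Lib.P344

/-- A gate of a linear circuit. Its arguments are the indices of earlier nodes:
`add i j` computes `u + v`, `sub i j` computes `u - v`, `smul c i` computes `c * u`. -/
inductive Gate : Type
  | add (i j : ℕ) : Gate
  | sub (i j : ℕ) : Gate
  | smul (c : ℂ) (i : ℕ) : Gate

/-- The value a gate computes from the list `vals` of the values of the earlier nodes
(an index outside the list reads as the constant `0`). -/
def Gate.eval (vals : List ℂ) : Gate → ℂ
  | Gate.add i j => vals.getD i 0 + vals.getD j 0
  | Gate.sub i j => vals.getD i 0 - vals.getD j 0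
  | Gate.smul c i => c * vals.getD i 0

/-- The values of all nodes of the circuit `gates` on the input `x`:
nodes `0, ..., n-1` are the inputs, node `n` is the constant `0`,
and node `n + 1 + t` is the `t`-th gate, evaluated on the values of the nodes before it. -/
def nodeValues {n : ℕ} (gates : List Gate) (x : Fin n → ℂ) : List ℂ :=
  gates.foldl (fun vals g => vals ++ [g.eval vals]) (List.ofFn x ++ [0])

/-- The circuit `gates`, with output `j` read off at node `out j`, computes the
unnormalized discrete Fourier transform `F_n x` for every input `x`. -/
def ComputesDFT (n : ℕ) (gates : List Gate) (out : Fin n → ℕ) : Prop :=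
  ∀ (x : Fin n → ℂ) (j : Fin n),
    (nodeValues gates x).getD (out j) 0 =
      ∑ k : Fin n, Complex.exp (2 * Real.pi * Complex.I / n) ^ ((j : ℕ) * (k : ℕ)) * x k

end Vale.Agent.Lib.P344
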