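import Vale.Agent.Lib.P344.Cyclo

namespace Vale.Agent.Lib.P344

open Finset

theorem form_of_computes (n : ℕ) (gates : List Gate) (out : Fin n → ℕ)
    (h : ComputesDFT n gates out) (j : Fin n) :
    form n gates (out j) =
      fun k : Fin n => Complex.exp (2 * Real.pi * Complex.I / n) ^ ((j : ℕ) * (k : ℕ)) := by
  funext k
  have h1 := h (Pi.single k 1) j
  rw [nodeValues_getD] at h1
  simpa [Pi.single_apply] using h1

/-- every linear circuit computing the unnormalized Fourier matrix `F_n` has at least
`3n - d(n) - 2` gates -/
theorem dft_lower_bound (n : ℕ) (hn : 2 ≤ n) (gates : List Gate) (out : Fin n → ℕ)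
    (h : ComputesDFT n gates out) : 3 * n ≤ gates.length + n.divisors.card + 2 := by
  have hζ := Complex.isPrimitiveRoot_exp n (by omega)
  have hform := form_of_computes n gates out h
  have h1 := adds_lower hn gates out _ hζ hform
  have h2 := smul_lower (by omega) gates out _ hζ hform
  have h3 := addCount_add_smulCount gates gates.length
  omega

end Vale.Agent.Lib.P344
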