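import Vale.Agent.Lib.P344.Adds

namespace Vale.Agent.Lib.P344

open Finset Polynomial

variable {n : ℕ}

/-- evaluation of a form on a rational input, as a `ℚ`-linear map -/
noncomputable def dotQ (c : Fin n → ℂ) : (Fin n → ℚ) →ₗ[ℚ] ℂ where
  toFun x := ∑ k, c k * (x k : ℂ)
  map_add' x y := by simp [mul_add, Finset.sum_add_distrib]
  map_smul' q x := by
    simp only [Pi.smul_apply, smul_eq_mul, Rat.cast_mul, RingHom.id_apply, Rat.smul_def,
      Finset.mul_sum]
    exact Finset.sum_congr rfl (fun k _ => by ring)

theorem dotQ_apply (c : Fin n → ℂ) (x : Fin n → ℚ) : dotQ c x = ∑ k, c k * (x k : ℂ) := rfl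

theorem dotQ_add (a b : Fin n → ℂ) (x : Fin n → ℚ) : dotQ (a + b) x = dotQ a x + dotQ b x := by
  simp [dotQ_apply, add_mul, Finset.sum_add_distrib]

theorem dotQ_sub (a b : Fin n → ℂ) (x : Fin n → ℚ) : dotQ (a - b) x = dotQ a x - dotQ b x := by
  simp [dotQ_apply, sub_mul, Finset.sum_sub_distrib]

theorem dotQ_smul (c : ℂ) (a : Fin n → ℂ) (x : Fin n → ℚ) : dotQ (c • a) x = c * dotQ a x := by
  simp [dotQ_apply, Finset.mul_sum, mul_assoc]

theorem dotQ_zero (x : Fin n → ℚ) : dotQ (0 : Fin n → ℂ) x = 0 := by
  simp [dotQ_apply]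

/-- cutting a subspace by a functional that is rational valued on it loses at most one dimension -/
theorem finrank_inf_ker_ge {W : Type*} [AddCommGroup W] [Module ℚ W] [FiniteDimensional ℚ W]
    (V : Submodule ℚ W) (l : W →ₗ[ℚ] ℂ) (h : ∀ x ∈ V, ∃ q : ℚ, l x = q) :
    Module.finrank ℚ V ≤ Module.finrank ℚ ↥(V ⊓ LinearMap.ker l) + 1 := by
  have h1 := LinearMap.finrank_range_add_finrank_ker (l.domRestrict V)
  have h2 : LinearMap.range (l.domRestrict V) ≤ Submodule.span ℚ {(1 : ℂ)} := by
    rintro y ⟨x, rfl⟩
    obtain ⟨q, hq⟩ := h x.1 x.2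
    rw [LinearMap.domRestrict_apply, hq, Submodule.mem_span_singleton]
    exact ⟨q, by simp [Rat.smul_def]⟩
  have h3 : Module.finrank ℚ (LinearMap.range (l.domRestrict V)) ≤ 1 := by
    refine (Submodule.finrank_mono h2).trans ?_
    exact (finrank_span_le_card ({(1 : ℂ)} : Set ℂ)).trans (by simp)
  have h4 : (LinearMap.ker (l.domRestrict V)).map V.subtype = V ⊓ LinearMap.ker l := by
    ext x
    simp only [Submodule.mem_map, LinearMap.mem_ker, LinearMap.domRestrict_apply,
      Submodule.subtype_apply, Subtype.exists, exists_and_right, exists_eq_right,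
      Submodule.mem_inf]
    constructor
    · rintro ⟨hx, hl⟩
      exact ⟨hx, hl⟩
    · rintro ⟨hx, hl⟩
      exact ⟨hx, hl⟩
  have h5 := Submodule.finrank_map_subtype_eq V (LinearMap.ker (l.domRestrict V))
  rw [h4] at h5
  omega

theorem pre_rational (gates : List Gate) (m : ℕ) (x : Fin n → ℚ)
    (h : ∀ i, i < m → ∃ q : ℚ, dotQ (form n gates i) x = q) (i : ℕ) :
    ∃ q : ℚ, dotQ (pre n gates m i) x = q := by
  unfold pre
  by_cases hi : i < m
  · rw [if_pos hi]; exact h i hi
  · rw [if_neg hi]; exact ⟨0, by rw [dotQ_zero]; simp⟩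

/-- there is a large space of rational inputs on which all nodes take rational values -/
theorem rational_invariant (gates : List Gate) (m : ℕ) (hm : m ≤ gates.length) :
    ∃ V : Submodule ℚ (Fin n → ℚ),
      n ≤ Module.finrank ℚ V + smulCount gates m ∧
      ∀ x ∈ V, ∀ i, i < n + 1 + m → ∃ q : ℚ, dotQ (form n gates i) x = q := by
  induction m with
  | zero =>
    refine ⟨⊤, ?_, ?_⟩
    · simp
    · intro x _ i hi
      rcases Nat.lt_or_ge i n with h | h
      · have hf := form_input gates (⟨i, h⟩ : Fin n)
        simp only at hf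
        rw [hf]
        exact ⟨x ⟨i, h⟩, by simp [dotQ_apply, Pi.single_apply]⟩
      · have hi' : i = n := by omega
        subst hi'
        rw [form_zero]
        exact ⟨0, by rw [dotQ_zero]; simp⟩
  | succ m ih =>
    obtain ⟨V, h1, h2⟩ := ih (by omega)
    have hform := form_gate (n := n) gates m (by omega)
    have hcount := smulCount_succ gates m
    cases hg : gateAt gates m with
    | add i j =>
      rw [hg] at hform hcount
      refine ⟨V, ?_, ?_⟩
      · rw [hcount]; omega
      · intro x hx i' hi'
        rcases Nat.lt_or_ge i' (n + 1 + m) with h | h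
        · exact h2 x hx i' h
        · have e : i' = n + 1 + m := by omega
          subst e
          rw [hform]
          simp only [Gate.evalF]
          obtain ⟨q1, hq1⟩ := pre_rational gates (n + 1 + m) x (h2 x hx) i
          obtain ⟨q2, hq2⟩ := pre_rational gates (n + 1 + m) x (h2 x hx) j
          exact ⟨q1 + q2, by rw [dotQ_add, hq1, hq2]; simp⟩
    | sub i j =>
      rw [hg] at hform hcount
      refine ⟨V, ?_, ?_⟩
      · rw [hcount]; omega
      · intro x hx i' hi'
        rcases Nat.lt_or_ge i' (n + 1 + m) with h | h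
        · exact h2 x hx i' h
        · have e : i' = n + 1 + m := by omega
          subst e
          rw [hform]
          simp only [Gate.evalF]
          obtain ⟨q1, hq1⟩ := pre_rational gates (n + 1 + m) x (h2 x hx) i
          obtain ⟨q2, hq2⟩ := pre_rational gates (n + 1 + m) x (h2 x hx) j
          exact ⟨q1 - q2, by rw [dotQ_sub, hq1, hq2]; simp⟩
    | smul c i =>
      rw [hg] at hform hcount
      refine ⟨V ⊓ LinearMap.ker (dotQ (pre n gates (n + 1 + m) i)), ?_, ?_⟩
      · have h3 := finrank_inf_ker_ge V (dotQ (pre n gates (n + 1 + m) i))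
          (fun x hx => pre_rational gates (n + 1 + m) x (h2 x hx) i)
        rw [hcount]
        simp only [Gate.isScalar, if_true]
        omega
      · intro x hx i' hi'
        rw [Submodule.mem_inf, LinearMap.mem_ker] at hx
        rcases Nat.lt_or_ge i' (n + 1 + m) with h | h
        · exact h2 x hx.1 i' h
        · have e : i' = n + 1 + m := by omega
          subst e
          rw [hform]
          simp only [Gate.evalF]
          exact ⟨0, by rw [dotQ_smul, hx.2]; simp⟩

end Vale.Agent.Lib.P344
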